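import Vale.Agent.P271.H84.DerGr

/-!
# P271, row 71-DER, part 3: vector fields on a `GCone`, chain rule in an analytic chart
-/

namespace Vale.Agent.P271.H84

open Filter Topology Metric Vale.Agent.P271.Sch

section cone

variable {n : ℕ} (C : GCone n)

/-- Homogeneous elements of all large degrees which do not vanish at a point of the cone. -/
theorem exists_hom_ne_zero {φ : C.Pt} (hφ : GCone.NV φ) :
    ∃ q₀, ∀ q ≥ q₀, ∃ u ∈ C.A q, φ u ≠ 0 := by
  have hmax : (RingHom.ker φ : Ideal C.R).IsMaximal :=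
    RingHom.ker_isMaximal_of_surjective φ fun c => ⟨algebraMap ℂ C.R c, by simp⟩
  have hker : ∀ s : C.R, s ∉ (RingHom.ker φ : Ideal C.R) ↔ φ s ≠ 0 := fun s => by
    rw [RingHom.mem_ker]
  obtain ⟨k, s, hs, s', hs', h1, h2⟩ := C.free (RingHom.ker φ) (by
    obtain ⟨k, hk, s, hs, h⟩ := hφ
    exact ⟨k, hk, s, hs, (hker s).2 h⟩)
  rw [hker] at h1 h2
  rcases Nat.eq_zero_or_pos k with rfl | hk
  · refine ⟨0, fun q _ => ⟨s' ^ q, ?_, ?_⟩⟩
    · have := SetLike.pow_mem_graded q hs'
      simpa using this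
    · rw [map_pow]; exact pow_ne_zero _ h2
  · refine ⟨k * k, fun q hq => ⟨s ^ (q / k - q % k) * s' ^ (q % k), ?_, ?_⟩⟩
    · have h3 := SetLike.mul_mem_graded (SetLike.pow_mem_graded (q / k - q % k) hs)
        (SetLike.pow_mem_graded (q % k) hs')
      have h4 : k ≤ q / k := (Nat.le_div_iff_mul_le hk).2 hq
      have h5 : q % k < k := Nat.mod_lt _ hk
      have h6 : (q / k - q % k) • k + (q % k) • (k + 1) = q := by
        have h7 := Nat.div_add_mod q k
        obtain ⟨t, ht⟩ := Nat.exists_eq_add_of_le (h5.le.trans h4)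
        rw [smul_eq_mul, smul_eq_mul]
        rw [ht] at h7 ⊢
        rw [Nat.add_sub_cancel_left]
        nlinarith
      rwa [h6] at h3
    · rw [map_mul, map_pow, map_pow]
      exact mul_ne_zero (pow_ne_zero _ h1) (pow_ne_zero _ h2)

theorem dim_le {φ : C.Pt} (hφ : GCone.NV φ) : ((n + 1 : ℕ) : WithBot ℕ∞) ≤ ringKrullDim C.R := by
  have hmax : (RingHom.ker φ : Ideal C.R).IsMaximal :=
    RingHom.ker_isMaximal_of_surjective φ fun c => ⟨algebraMap ℂ C.R c, by simp⟩
  have h1 := (C.regular (RingHom.ker φ) (by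
    obtain ⟨k, hk, s, hs, h⟩ := hφ
    exact ⟨k, hk, s, hs, by rwa [RingHom.mem_ker]⟩)).2
  rw [← h1, IsLocalization.AtPrime.ringKrullDim_eq_height (RingHom.ker φ)]
  exact Ideal.height_le_ringKrullDim_of_ne_top hmax.ne_top

/-- **(D1)** Homogeneous vector fields with nonzero determinant at `φ`. -/
theorem exists_der {φ : C.Pt} (hφ : GCone.NV φ) {X : Fin (n + 1) → C.R}
    (hX : ∀ s, φ s = 0 → ∃ h, φ h ≠ 0 ∧
      h * s ∈ Ideal.span (Set.range fun j => X j - algebraMap ℂ C.R (φ (X j)))) :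
    ∃ (M₁ : ℕ) (θ : Fin (n + 1) → Derivation ℂ C.R C.R),
      (∀ i m, ∀ s ∈ C.A m, θ i s ∈ C.A (m + M₁)) ∧
        (Matrix.of fun i j => φ (θ i (X j))).det ≠ 0 := by
  have := C.finiteType
  exact RegPar.exists_hom_der C.A (exists_hom_ne_zero C hφ) (dim_le C hφ) hX

end cone

section chain

variable {k : Type*} [Field k] {R : Type*} [CommRing R] [Algebra k R] {ι : Type*} [Fintype ι]

/-- Tangent vectors at a point `χ` satisfy the linear relations between differentials. -/
theorem point_der {X : ι → R} {h s : R} {c : ι → R}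
    (hc : h • KaehlerDifferential.D k R s = ∑ j, c j • KaehlerDifferential.D k R (X j))
    (χ : R →ₐ[k] k) (δ : R →ₗ[k] k) (hδ : ∀ a b, δ (a * b) = χ a * δ b + χ b * δ a) :
    χ h * δ s = ∑ j, χ (c j) * δ (X j) := by
  let _ : Module R k := Module.compHom k χ.toRingHom
  have hsm : ∀ (a : R) (x : k), a • x = χ a * x := fun _ _ => rfl
  have _ : IsScalarTower k R k := ⟨fun a b x => by
    rw [hsm, hsm, Algebra.smul_def, map_mul, AlgHom.commutes]
    simp [mul_assoc]⟩
  let Δ : Derivation k R k := Derivation.mk' δ fun a b => by rw [hδ, hsm, hsm]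
  have := congrArg Δ.liftKaehlerDifferential hc
  simpa [hsm, Δ] using this

end chain

section chart

variable {R : Type*} [CommRing R] [Algebra ℂ R] {N : ℕ}

/-- **(D2)** The chain rule in an analytic chart with coordinates `X`. -/
theorem chain_rule [Algebra.FiniteType ℂ R] {φ : R →ₐ[ℂ] ℂ} {X : Fin N → R}
    (hX : ∀ s, φ s = 0 → ∃ h, φ h ≠ 0 ∧
      h * s ∈ Ideal.span (Set.range fun j => X j - algebraMap ℂ R (φ (X j))))
    {pt : (Fin N → ℂ) → (R →ₐ[ℂ] ℂ)} {r : ℝ} (hr : 0 < r) (h0 : pt 0 = φ)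
    (hpt : ∀ s, AnalyticOnNhd ℂ (fun x => pt x s) (ball 0 r)) (hcoord : ∀ x ∈ ball (0 : Fin N → ℂ) r,
      ∀ j, pt x (X j) = φ (X j) + x j)
    (D : Derivation ℂ R R) (s : R) {x : Fin N → ℂ} (hx : x ∈ ball 0 r) :
    pt x (D s) = ∑ j, pt x (D (X j)) * fderiv ℂ (fun x => pt x s) x (Pi.single j 1) := by
  classical
  obtain ⟨h, hφh, hh⟩ := RegPar.exists_smul (φ := φ) (X := X) hX
  obtain ⟨c, hc⟩ := hh s
  have hdiff : ∀ s, ∀ x ∈ ball (0 : Fin N → ℂ) r, DifferentiableAt ℂ (fun x => pt x s) x :=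
    fun s x hx => (hpt s x hx).differentiableAt
  have hcoord' : ∀ x ∈ ball (0 : Fin N → ℂ) r, ∀ j i,
      fderiv ℂ (fun x => pt x (X j)) x (Pi.single i 1) = if i = j then 1 else 0 := by
    intro x hx j i
    have h1 : (fun x => pt x (X j)) =ᶠ[𝓝 x] fun x => φ (X j) + x j := by
      filter_upwards [isOpen_ball.mem_nhds hx] with y hy using hcoord y hy j
    rw [h1.fderiv_eq, fderiv_const_add]
    have h2 : HasFDerivAt (fun x : Fin N → ℂ => x j)
        (ContinuousLinearMap.proj (R := ℂ) (φ := fun _ : Fin N => ℂ) j) x :=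
      (ContinuousLinearMap.proj (R := ℂ) (φ := fun _ : Fin N => ℂ) j).hasFDerivAt
    rw [h2.fderiv]
    simp [Pi.single_apply, eq_comm]
  -- the identity where `h` does not vanish
  have key : ∀ x ∈ ball (0 : Fin N → ℂ) r, pt x h ≠ 0 →
      pt x (D s) = ∑ j, pt x (D (X j)) * fderiv ℂ (fun x => pt x s) x (Pi.single j 1) := by
    intro x hx hne
    let δ₁ : R →ₗ[ℂ] ℂ := (pt x).toLinearMap ∘ₗ (D : R →ₗ[ℂ] R)
    have hδ₁ : ∀ a, δ₁ a = pt x (D a) := fun _ => rfl
    let δ₂ : R →ₗ[ℂ] ℂ :=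
      { toFun := fun a => ∑ j, pt x (D (X j)) * fderiv ℂ (fun x => pt x a) x (Pi.single j 1)
        map_add' := fun a b => by
          rw [← Finset.sum_add_distrib]
          refine Finset.sum_congr rfl fun j _ => ?_
          have : (fun x => pt x (a + b)) = fun x => pt x a + pt x b := by
            funext y; exact map_add _ _ _
          rw [this, fderiv_fun_add (hdiff a x hx) (hdiff b x hx), _root_.add_apply]
          ring
        map_smul' := fun t a => by
          rw [RingHom.id_apply, smul_eq_mul, Finset.mul_sum]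
          refine Finset.sum_congr rfl fun j _ => ?_
          have : (fun x => pt x (t • a)) = fun x => t • pt x a := by
            funext y; exact map_smul _ _ _
          rw [this, fderiv_fun_const_smul (hdiff a x hx), _root_.smul_apply,
            smul_eq_mul]
          ring }
    have hδ₂ : ∀ a, δ₂ a = ∑ j, pt x (D (X j)) * fderiv ℂ (fun x => pt x a) x (Pi.single j 1) :=
      fun _ => rfl
    have e₁ := point_der hc (pt x) δ₁ fun a b => by
      rw [hδ₁, hδ₁, hδ₁, Derivation.leibniz, map_add, smul_eq_mul, smul_eq_mul, map_mul, map_mul]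
    have e₂ := point_der hc (pt x) δ₂ fun a b => by
      rw [hδ₂, hδ₂, hδ₂, Finset.mul_sum, Finset.mul_sum, ← Finset.sum_add_distrib]
      refine Finset.sum_congr rfl fun j _ => ?_
      have : (fun x => pt x (a * b)) = fun x => pt x a * pt x b := by
        funext y; exact map_mul _ _ _
      rw [this, fderiv_fun_mul (hdiff a x hx) (hdiff b x hx), _root_.add_apply,
        _root_.smul_apply, _root_.smul_apply, smul_eq_mul, smul_eq_mul]
      ring
    have h3 : ∀ j, δ₂ (X j) = δ₁ (X j) := by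
      intro j
      rw [hδ₂, hδ₁, Finset.sum_eq_single j]
      · rw [hcoord' x hx, if_pos rfl, mul_one]
      · intro i _ hij
        rw [hcoord' x hx, if_neg hij, mul_zero]
      · simp
    simp only [h3] at e₂
    rw [← e₁] at e₂
    have := mul_left_cancel₀ hne e₂
    rw [hδ₁, hδ₂] at this
    exact this.symm
  -- analytic continuation
  have an₁ : AnalyticOnNhd ℂ (fun x => pt x (D s)) (ball 0 r) := hpt _
  have an₂ : AnalyticOnNhd ℂ (fun x => ∑ j, pt x (D (X j)) *
      fderiv ℂ (fun x => pt x s) x (Pi.single j 1)) (ball 0 r) := by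
    refine Finset.analyticOnNhd_fun_sum _ fun j _ => ?_
    refine (hpt _).mul ?_
    have h4 : AnalyticOnNhd ℂ (fderiv ℂ (fun x => pt x s)) (ball 0 r) := (hpt s).fderiv
    intro y hy
    exact ((ContinuousLinearMap.apply ℂ ℂ (Pi.single j (1 : ℂ) : Fin N → ℂ)).analyticAt _).comp
      (h4 y hy)
  have hev : (fun x => pt x (D s)) =ᶠ[𝓝 0] (fun x => ∑ j, pt x (D (X j)) *
      fderiv ℂ (fun x => pt x s) x (Pi.single j 1)) := by
    have h5 : ∀ᶠ x in 𝓝 (0 : Fin N → ℂ), pt x h ≠ 0 := by
      have h6 : ContinuousAt (fun x => pt x h) 0 := (hpt h 0 (mem_ball_self hr)).continuousAt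
      refine h6.eventually_ne ?_
      rw [h0, hφh]
      exact one_ne_zero
    filter_upwards [h5, isOpen_ball.mem_nhds (mem_ball_self hr)] with y hy1 hy2
    exact key y hy2 hy1
  exact an₁.eqOn_of_preconnected_of_eventuallyEq an₂
    (convex_ball (0 : Fin N → ℂ) r).isPreconnected (mem_ball_self hr) hev hx

end chart

end Vale.Agent.P271.H84
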