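import Vale.Agent.P271.H84.Jumps

/-!
# P271 / JUMPS: extension of a valuation from the homogeneous elements to the graded ring
(helper84)
-/

set_option linter.all false

open Module DirectSum

namespace Vale.Agent.P271.H84

variable {k R : Type*} [Field k] [CommRing R] [Algebra k R]

/-- A nonnegative real valuation on the nonzero homogeneous elements of a graded ring. -/
structure HVal (𝒜 : ℕ → Submodule k R) (v : R → ℝ) : Prop where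
  nonneg : ∀ i, ∀ f ∈ 𝒜 i, f ≠ 0 → 0 ≤ v f
  mul : ∀ i j, ∀ f ∈ 𝒜 i, ∀ g ∈ 𝒜 j, f ≠ 0 → g ≠ 0 → v (f * g) = v f + v g
  add : ∀ i, ∀ f ∈ 𝒜 i, ∀ g ∈ 𝒜 i, f ≠ 0 → g ≠ 0 → f + g ≠ 0 → min (v f) (v g) ≤ v (f + g)

/-- the homogeneous component of degree `i` -/
noncomputable def cp (𝒜 : ℕ → Submodule k R) [GradedAlgebra 𝒜] (f : R) (i : ℕ) : R :=
  (decompose 𝒜 f i : R)

section cp

variable (𝒜 : ℕ → Submodule k R) [GradedAlgebra 𝒜]

theorem cp_mem (f : R) (i : ℕ) : cp 𝒜 f i ∈ 𝒜 i := (decompose 𝒜 f i).2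

theorem cp_add (f g : R) (i : ℕ) : cp 𝒜 (f + g) i = cp 𝒜 f i + cp 𝒜 g i := by
  unfold cp
  rw [decompose_add]
  rfl

theorem cp_same {f : R} {i : ℕ} (hf : f ∈ 𝒜 i) : cp 𝒜 f i = f := decompose_of_mem_same 𝒜 hf

theorem cp_ne {f : R} {i j : ℕ} (hf : f ∈ 𝒜 i) (hij : i ≠ j) : cp 𝒜 f j = 0 :=
  decompose_of_mem_ne 𝒜 hf hij

open Classical in
/-- the degrees of the nonzero components -/
noncomputable def sp (f : R) : Finset ℕ := (decompose 𝒜 f).support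

theorem mem_sp {f : R} {i : ℕ} : i ∈ sp 𝒜 f ↔ cp 𝒜 f i ≠ 0 := by
  classical
  unfold sp cp
  rw [DFinsupp.mem_support_iff, Ne, Ne, ← Submodule.coe_eq_zero]

theorem sum_cp (f : R) : ∑ i ∈ sp 𝒜 f, cp 𝒜 f i = f := by
  classical
  exact DirectSum.sum_support_decompose 𝒜 f

theorem sp_nonempty {f : R} (hf : f ≠ 0) : (sp 𝒜 f).Nonempty := by
  by_contra h
  rw [Finset.not_nonempty_iff_eq_empty] at h
  apply hf
  rw [← sum_cp 𝒜 f, h, Finset.sum_empty]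

theorem cp_mul (f g : R) (n : ℕ) : cp 𝒜 (f * g) n =
    ∑ ij ∈ (sp 𝒜 f ×ˢ sp 𝒜 g).filter (fun ij => ij.1 + ij.2 = n),
      cp 𝒜 f ij.1 * cp 𝒜 g ij.2 := by
  classical
  unfold cp sp
  rw [decompose_mul]
  exact DirectSum.coe_mul_apply 𝒜 _ _ n

end cp

namespace HVal

variable {𝒜 : ℕ → Submodule k R} [GradedAlgebra 𝒜] [IsDomain R] {v : R → ℝ} (h : HVal 𝒜 v)
include h

theorem one : v 1 = 0 := by
  have h1 : (1 : R) ∈ 𝒜 0 := SetLike.GradedOne.one_mem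
  have := h.mul 0 0 1 h1 1 h1 one_ne_zero one_ne_zero
  rw [one_mul] at this
  linarith

theorem neg_one : v (-1) = 0 := by
  have h1 : (-1 : R) ∈ 𝒜 0 := neg_mem SetLike.GradedOne.one_mem
  have := h.mul 0 0 (-1) h1 (-1) h1 (neg_ne_zero.2 one_ne_zero) (neg_ne_zero.2 one_ne_zero)
  rw [neg_one_mul, neg_neg, h.one] at this
  linarith

theorem neg {i : ℕ} {f : R} (hf : f ∈ 𝒜 i) (h0 : f ≠ 0) : v (-f) = v f := by
  have h1 : (-1 : R) ∈ 𝒜 0 := neg_mem SetLike.GradedOne.one_mem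
  have := h.mul 0 i (-1) h1 f hf (neg_ne_zero.2 one_ne_zero) h0
  rw [neg_one_mul, h.neg_one, zero_add] at this
  exact this

theorem add_of_lt {i : ℕ} {x y : R} (hxi : x ∈ 𝒜 i) (hyi : y ∈ 𝒜 i) (hx : x ≠ 0)
    (hlt : y ≠ 0 → v x < v y) : x + y ≠ 0 ∧ v (x + y) = v x := by
  by_cases hy : y = 0
  · rw [hy, add_zero]
    exact ⟨hx, rfl⟩
  replace hlt := hlt hy
  have h0 : x + y ≠ 0 := by
    intro h0
    have : x = -y := eq_neg_of_add_eq_zero_left h0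
    rw [this, h.neg hyi hy] at hlt
    exact lt_irrefl _ hlt
  refine ⟨h0, le_antisymm ?_ ?_⟩
  · by_contra hlt'
    push Not at hlt'
    have h1 := h.add i (x + y) (add_mem hxi hyi) (-y) (neg_mem hyi) h0 (neg_ne_zero.mpr hy)
      (by simpa using hx)
    rw [h.neg hyi hy, add_neg_cancel_right] at h1
    exact absurd h1 (not_le.mpr (lt_min hlt' hlt))
  · have h1 := h.add i x hxi y hyi hx hy h0
    rwa [min_eq_left hlt.le] at h1

/-- the minimum over the homogeneous components -/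
noncomputable def ext (_ : HVal 𝒜 v) (f : R) : ℝ := by
  classical
  exact if hf : f = 0 then 0 else (sp 𝒜 f).inf' (sp_nonempty 𝒜 hf) (fun i => v (cp 𝒜 f i))

theorem le_ext_iff {a : ℝ} {f : R} (hf : f ≠ 0) :
    a ≤ h.ext f ↔ ∀ i, cp 𝒜 f i ≠ 0 → a ≤ v (cp 𝒜 f i) := by
  unfold ext
  rw [dif_neg hf, Finset.le_inf'_iff]
  simp only [mem_sp]

theorem lt_ext_iff {a : ℝ} {f : R} (hf : f ≠ 0) :
    a < h.ext f ↔ ∀ i, cp 𝒜 f i ≠ 0 → a < v (cp 𝒜 f i) := by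
  unfold ext
  rw [dif_neg hf, Finset.lt_inf'_iff]
  simp only [mem_sp]

theorem ext_le {f : R} {i : ℕ} (hi : cp 𝒜 f i ≠ 0) : h.ext f ≤ v (cp 𝒜 f i) := by
  have hf : f ≠ 0 := by
    rintro rfl
    apply hi
    unfold cp
    rw [decompose_zero]
    rfl
  exact (h.le_ext_iff hf).1 le_rfl i hi

theorem exists_eq {f : R} (hf : f ≠ 0) : ∃ i, cp 𝒜 f i ≠ 0 ∧ v (cp 𝒜 f i) = h.ext f := by
  obtain ⟨i, hi, h1⟩ := (sp 𝒜 f).exists_mem_eq_inf' (sp_nonempty 𝒜 hf) (fun i => v (cp 𝒜 f i))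
  refine ⟨i, (mem_sp 𝒜).1 hi, ?_⟩
  unfold ext
  rw [dif_neg hf]
  exact h1.symm

/-- the smallest degree where the minimum is attained -/
theorem exists_first {f : R} (hf : f ≠ 0) : ∃ i, cp 𝒜 f i ≠ 0 ∧ v (cp 𝒜 f i) = h.ext f ∧
    ∀ j < i, cp 𝒜 f j ≠ 0 → h.ext f < v (cp 𝒜 f j) := by
  classical
  have h1 := h.exists_eq hf
  refine ⟨Nat.find h1, (Nat.find_spec h1).1, (Nat.find_spec h1).2, fun j hj hj0 => ?_⟩
  have h2 := Nat.find_min h1 hj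
  push Not at h2
  exact lt_of_le_of_ne (h.ext_le hj0) (fun h3 => h2 hj0 h3.symm)

theorem ext_homogeneous {i : ℕ} {f : R} (hf : f ∈ 𝒜 i) (h0 : f ≠ 0) : h.ext f = v f := by
  obtain ⟨j, hj, hj'⟩ := h.exists_eq h0
  by_cases hij : i = j
  · subst hij
    rw [cp_same 𝒜 hf] at hj'
    exact hj'.symm
  · exact absurd (cp_ne 𝒜 hf hij) hj

theorem ext_add {f g : R} (hf : f ≠ 0) (hg : g ≠ 0) (hfg : f + g ≠ 0) :
    min (h.ext f) (h.ext g) ≤ h.ext (f + g) := by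
  rw [h.le_ext_iff hfg]
  intro i hi
  rw [cp_add] at hi ⊢
  by_cases h1 : cp 𝒜 f i = 0
  · rw [h1, zero_add] at hi ⊢
    exact le_trans (min_le_right _ _) (h.ext_le hi)
  by_cases h2 : cp 𝒜 g i = 0
  · rw [h2, add_zero] at hi ⊢
    exact le_trans (min_le_left _ _) (h.ext_le hi)
  refine le_trans ?_ (h.add i _ (cp_mem 𝒜 f i) _ (cp_mem 𝒜 g i) h1 h2 hi)
  exact min_le_min (h.ext_le h1) (h.ext_le h2)

/-- sums of elements of large value have large value -/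
theorem sum_large {ι : Type*} (s : Finset ι) (F : ι → R) (n : ℕ) (a : ℝ)
    (hF : ∀ x ∈ s, F x ∈ 𝒜 n) (hv : ∀ x ∈ s, F x ≠ 0 → a < v (F x)) :
    (∑ x ∈ s, F x) ∈ 𝒜 n ∧ (∑ x ∈ s, F x ≠ 0 → a < v (∑ x ∈ s, F x)) := by
  refine Finset.sum_induction F (fun x => x ∈ 𝒜 n ∧ (x ≠ 0 → a < v x)) ?_ ?_ ?_
  · rintro x y ⟨hx, hx'⟩ ⟨hy, hy'⟩
    refine ⟨add_mem hx hy, fun hxy => ?_⟩
    by_cases h1 : x = 0
    · subst h1
      rw [zero_add] at hxy ⊢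
      exact hy' hxy
    by_cases h2 : y = 0
    · subst h2
      rw [add_zero] at hxy ⊢
      exact hx' hxy
    exact lt_of_lt_of_le (lt_min (hx' h1) (hy' h2)) (h.add n x hx y hy h1 h2 hxy)
  · exact ⟨zero_mem _, fun h0 => absurd rfl h0⟩
  · exact fun x hx => ⟨hF x hx, hv x hx⟩

theorem sum_large' {ι : Type*} (s : Finset ι) (F : ι → R) (n : ℕ) (a : ℝ)
    (hF : ∀ x ∈ s, F x ∈ 𝒜 n) (hv : ∀ x ∈ s, F x ≠ 0 → a ≤ v (F x)) :
    (∑ x ∈ s, F x) ∈ 𝒜 n ∧ (∑ x ∈ s, F x ≠ 0 → a ≤ v (∑ x ∈ s, F x)) := by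
  refine Finset.sum_induction F (fun x => x ∈ 𝒜 n ∧ (x ≠ 0 → a ≤ v x)) ?_ ?_ ?_
  · rintro x y ⟨hx, hx'⟩ ⟨hy, hy'⟩
    refine ⟨add_mem hx hy, fun hxy => ?_⟩
    by_cases h1 : x = 0
    · subst h1
      rw [zero_add] at hxy ⊢
      exact hy' hxy
    by_cases h2 : y = 0
    · subst h2
      rw [add_zero] at hxy ⊢
      exact hx' hxy
    exact le_trans (le_min (hx' h1) (hy' h2)) (h.add n x hx y hy h1 h2 hxy)
  · exact ⟨zero_mem _, fun h0 => absurd rfl h0⟩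
  · exact fun x hx => ⟨hF x hx, hv x hx⟩

theorem ext_mul {f g : R} (hf : f ≠ 0) (hg : g ≠ 0) : h.ext (f * g) = h.ext f + h.ext g := by
  classical
  have hfg : f * g ≠ 0 := mul_ne_zero hf hg
  refine le_antisymm ?_ ?_
  · obtain ⟨i0, hi0, hi0v, hi0m⟩ := h.exists_first hf
    obtain ⟨j0, hj0, hj0v, hj0m⟩ := h.exists_first hg
    have hmem : (i0, j0) ∈ (sp 𝒜 f ×ˢ sp 𝒜 g).filter (fun ij => ij.1 + ij.2 = i0 + j0) := by
      rw [Finset.mem_filter, Finset.mem_product]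
      exact ⟨⟨(mem_sp 𝒜).2 hi0, (mem_sp 𝒜).2 hj0⟩, rfl⟩
    have hsplit : cp 𝒜 (f * g) (i0 + j0) = cp 𝒜 f i0 * cp 𝒜 g j0 +
        ∑ ij ∈ ((sp 𝒜 f ×ˢ sp 𝒜 g).filter (fun ij => ij.1 + ij.2 = i0 + j0)).erase (i0, j0),
          cp 𝒜 f ij.1 * cp 𝒜 g ij.2 := by
      rw [cp_mul, Finset.add_sum_erase _ (fun ij => cp 𝒜 f ij.1 * cp 𝒜 g ij.2) hmem]
    have hprod : v (cp 𝒜 f i0 * cp 𝒜 g j0) = h.ext f + h.ext g := by
      rw [h.mul i0 j0 _ (cp_mem 𝒜 f i0) _ (cp_mem 𝒜 g j0) hi0 hj0, hi0v, hj0v]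
    obtain ⟨hr1, hr2⟩ := h.sum_large
      (((sp 𝒜 f ×ˢ sp 𝒜 g).filter (fun ij => ij.1 + ij.2 = i0 + j0)).erase (i0, j0))
      (fun ij => cp 𝒜 f ij.1 * cp 𝒜 g ij.2) (i0 + j0) (h.ext f + h.ext g) (by
        rintro ⟨i, j⟩ hij
        obtain ⟨_, hij'⟩ := Finset.mem_erase.1 hij
        have hsum : i + j = i0 + j0 := (Finset.mem_filter.1 hij').2
        rw [← hsum]
        exact SetLike.GradedMul.mul_mem (cp_mem 𝒜 f i) (cp_mem 𝒜 g j)) (by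
        rintro ⟨i, j⟩ hij h0
        obtain ⟨hne, hij'⟩ := Finset.mem_erase.1 hij
        have hsum : i + j = i0 + j0 := (Finset.mem_filter.1 hij').2
        have hfi : cp 𝒜 f i ≠ 0 := left_ne_zero_of_mul h0
        have hgj : cp 𝒜 g j ≠ 0 := right_ne_zero_of_mul h0
        show h.ext f + h.ext g < v (cp 𝒜 f i * cp 𝒜 g j)
        rw [h.mul i j _ (cp_mem 𝒜 f i) _ (cp_mem 𝒜 g j) hfi hgj]
        rcases lt_trichotomy i i0 with hlt | heq | hgt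
        · have h1 := hi0m i hlt hfi
          have h2 := h.ext_le hgj
          linarith
        · exfalso
          apply hne
          subst heq
          have : j = j0 := by omega
          rw [this]
        · have h1 := hj0m j (by omega) hgj
          have h2 := h.ext_le hfi
          linarith)
    have h3 := h.add_of_lt (i := i0 + j0)
      (SetLike.GradedMul.mul_mem (cp_mem 𝒜 f i0) (cp_mem 𝒜 g j0)) hr1 (mul_ne_zero hi0 hj0)
      (fun h0 => by rw [hprod]; exact hr2 h0)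
    rw [← hsplit, hprod] at h3
    rw [← h3.2]
    exact h.ext_le h3.1
  · rw [h.le_ext_iff hfg]
    intro n hn
    rw [cp_mul] at hn ⊢
    refine (h.sum_large' _ (fun ij : ℕ × ℕ => cp 𝒜 f ij.1 * cp 𝒜 g ij.2) n _ ?_ ?_).2 hn
    · rintro ⟨i, j⟩ hij
      have hsum : i + j = n := (Finset.mem_filter.1 hij).2
      rw [← hsum]
      exact SetLike.GradedMul.mul_mem (cp_mem 𝒜 f i) (cp_mem 𝒜 g j)
    · rintro ⟨i, j⟩ hij h0
      have hfi : cp 𝒜 f i ≠ 0 := left_ne_zero_of_mul h0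
      have hgj : cp 𝒜 g j ≠ 0 := right_ne_zero_of_mul h0
      show h.ext f + h.ext g ≤ v (cp 𝒜 f i * cp 𝒜 g j)
      rw [h.mul i j _ (cp_mem 𝒜 f i) _ (cp_mem 𝒜 g j) hfi hgj]
      exact add_le_add (h.ext_le hfi) (h.ext_le hgj)

/-- the extension is a valuation of the ring -/
theorem rval : RVal h.ext where
  nonneg f hf := (h.le_ext_iff hf).2 fun i hi => h.nonneg i _ (cp_mem 𝒜 f i) hi
  mul f g hf hg := h.ext_mul hf hg
  add f g hf hg hfg := h.ext_add hf hg hfg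

theorem mem_b_iff {a : ℝ} {f : R} :
    f ∈ h.rval.b a ↔ ∀ i, cp 𝒜 f i ≠ 0 → a ≤ v (cp 𝒜 f i) := by
  by_cases hf : f = 0
  · subst hf
    refine ⟨fun _ i hi => absurd ?_ hi, fun _ => zero_mem _⟩
    unfold cp
    rw [decompose_zero]
    rfl
  · rw [h.rval.mem_b_of_ne hf, h.le_ext_iff hf]

theorem mem_bgt_iff {a : ℝ} {f : R} :
    f ∈ h.rval.bgt a ↔ ∀ i, cp 𝒜 f i ≠ 0 → a < v (cp 𝒜 f i) := by
  by_cases hf : f = 0
  · subst hf
    refine ⟨fun _ i hi => absurd ?_ hi, fun _ => zero_mem _⟩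
    unfold cp
    rw [decompose_zero]
    rfl
  · rw [h.rval.mem_bgt_of_ne hf, h.lt_ext_iff hf]

theorem b_homogeneous (a : ℝ) : (h.rval.b a).IsHomogeneous 𝒜 := by
  intro i f hf
  change cp 𝒜 f i ∈ h.rval.b a
  rw [h.rval.mem_b]
  intro h0
  rw [h.ext_homogeneous (cp_mem 𝒜 f i) h0]
  exact h.mem_b_iff.1 hf i h0

theorem bgt_homogeneous (a : ℝ) : (h.rval.bgt a).IsHomogeneous 𝒜 := by
  intro i f hf
  change cp 𝒜 f i ∈ h.rval.bgt a
  rw [h.rval.mem_bgt]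
  intro h0
  rw [h.ext_homogeneous (cp_mem 𝒜 f i) h0]
  exact h.mem_bgt_iff.1 hf i h0

theorem P_homogeneous : h.rval.P.IsHomogeneous 𝒜 := h.bgt_homogeneous 0

theorem mem_P_iff {i : ℕ} {f : R} (hf : f ∈ 𝒜 i) (h0 : f ≠ 0) : f ∈ h.rval.P ↔ 0 < v f := by
  rw [RVal.P, h.rval.mem_bgt_of_ne h0, h.ext_homogeneous hf h0]

theorem wt_w {i : ℕ} (x : 𝒜 i) (hx : x ≠ 0) : (h.rval.wt (𝒜 i)).w x = v x := by
  rw [RVal.wt_w]
  exact h.ext_homogeneous x.2 fun h0 => hx (Subtype.ext h0)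

end HVal

/-- **Extension of a valuation from the homogeneous elements.** -/
theorem HVal.exists_ext {𝒜 : ℕ → Submodule k R} [GradedAlgebra 𝒜] [IsDomain R] {v : R → ℝ}
    (h : HVal 𝒜 v) : ∃ (v' : R → ℝ) (h' : RVal v'),
      (∀ i, ∀ f ∈ 𝒜 i, f ≠ 0 → v' f = v f) ∧ (∀ a, (h'.b a).IsHomogeneous 𝒜) ∧
      (∀ a, (h'.bgt a).IsHomogeneous 𝒜) ∧ h'.P.IsHomogeneous 𝒜 :=
  ⟨h.ext, h.rval, fun i f hf h0 => h.ext_homogeneous hf h0, h.b_homogeneous, h.bgt_homogeneous,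
    h.P_homogeneous⟩

end Vale.Agent.P271.H84
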