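import Vale.Agent.P271.H84.HVal
import Vale.Agent.P271.Inst.Hom

/-!
# P271 / JUMPS: the valuation of the ring attached to a saturated weight function
(helper84)

`vR v : C.R → ℝ` is the extension by zero of `v : HM C → ℝ`; `hval_of_sat`: for a saturated `v` it
is a valuation on the homogeneous elements, so `(hval_of_sat hS h).rval` is a valuation of the
ring with homogeneous valuation ideals; `P_le_ker`: its centre is contained in the prime ideal of
the point.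
-/

set_option linter.all false

open Module DirectSum

namespace Vale.Agent.P271.H84

open Vale.Agent.P271.Sch Vale.Agent.P271.Inst Vale.Agent.P271.Zorn

variable {n : ℕ} {C : GCone n}

instance isNoetherianRing : IsNoetherianRing C.R :=
  haveI := C.finiteType
  Algebra.FiniteType.isNoetherianRing ℂ C.R

open Classical in
/-- extension by zero -/
noncomputable def vR (v : HM C → ℝ) (f : C.R) : ℝ := if h : f ∈ HM C then v ⟨f, h⟩ else 0

theorem vR_mem (v : HM C → ℝ) {f : C.R} (h : f ∈ HM C) : vR v f = v ⟨f, h⟩ := by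
  unfold vR
  rw [dif_pos h]

theorem vR_coe (v : HM C → ℝ) (f : HM C) : vR v (f : C.R) = v f := vR_mem v f.2

theorem hval_of (v : HM C → ℝ) (h0 : ∀ f, 0 ≤ v f) (hmul : ∀ f g, v (f * g) = v f + v g)
    (hsum : ∀ f g s : HM C, SumRel f g s → min (v f) (v g) ≤ v s) : HVal C.A (vR v) where
  nonneg i f hf hf0 := by
    rw [vR_mem v (mem_HM.2 ⟨hf0, i, hf⟩)]
    exact h0 _
  mul i j f hf g hg hf0 hg0 := by
    have h1 : f ∈ HM C := mem_HM.2 ⟨hf0, i, hf⟩
    have h2 : g ∈ HM C := mem_HM.2 ⟨hg0, j, hg⟩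
    rw [vR_mem v h1, vR_mem v h2, ← hmul, vR_mem v ((HM C).mul_mem h1 h2)]
    rfl
  add i f hf g hg hf0 hg0 hfg := by
    have h1 : f ∈ HM C := mem_HM.2 ⟨hf0, i, hf⟩
    have h2 : g ∈ HM C := mem_HM.2 ⟨hg0, i, hg⟩
    have h3 : f + g ∈ HM C := mem_HM.2 ⟨hfg, i, add_mem hf hg⟩
    rw [vR_mem v h1, vR_mem v h2, vR_mem v h3]
    exact hsum ⟨f, h1⟩ ⟨g, h2⟩ ⟨f + g, h3⟩ rfl

theorem hval_of_sat {D : Dat (HM C)} (hS : ∀ f g s : HM C, SumRel f g s → D.Sum f g s)
    {v : HM C → ℝ} {c : ℝ} (h : D.Sat v c) : HVal C.A (vR v) :=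
  hval_of v h.nonneg h.mul fun f g s hs => h.sum (hS f g s hs)

section

variable {v : HM C → ℝ} (h : HVal C.A (vR v))
include h

theorem ext_coe (f : HM C) : h.ext (f : C.R) = v f := by
  rw [h.ext_homogeneous (HM.deg_mem f) (HM.ne f), vR_coe]

theorem mem_P_coe (f : HM C) : (f : C.R) ∈ h.rval.P ↔ 0 < v f := by
  rw [h.mem_P_iff (HM.deg_mem f) (HM.ne f), vR_coe]

theorem mem_b_coe (a : ℝ) (f : HM C) : (f : C.R) ∈ h.rval.b a ↔ a ≤ v f := by
  rw [h.rval.mem_b_of_ne (HM.ne f), ext_coe h]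

theorem mem_bgt_coe (a : ℝ) (f : HM C) : (f : C.R) ∈ h.rval.bgt a ↔ a < v f := by
  rw [h.rval.mem_bgt_of_ne (HM.ne f), ext_coe h]

/-- the weight function on the graded piece of degree `m` -/
theorem wt_mk {m : ℕ} (x : C.A m) (hx : x ≠ 0) :
    (h.rval.wt (C.A m)).w x = v ⟨x, mem_HM.2 ⟨fun h0 => hx (Subtype.ext h0), m, x.2⟩⟩ := by
  rw [h.wt_w x hx, vR_mem]

/-- the centre is contained in the prime ideal of the point -/
theorem P_le_ker {z : C.Pt} (hz : ∀ f : HM C, z (f : C.R) ≠ 0 → v f = 0) :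
    h.rval.P ≤ RingHom.ker z := by
  intro f hf
  rw [RingHom.mem_ker, ← sum_cp C.A f, map_sum]
  refine Finset.sum_eq_zero fun i hi => ?_
  by_contra hne
  have h0 : cp C.A f i ≠ 0 := (mem_sp C.A).1 hi
  have hm : cp C.A f i ∈ HM C := mem_HM.2 ⟨h0, i, cp_mem C.A f i⟩
  have h1 := hz ⟨_, hm⟩ hne
  have h2 := h.mem_bgt_iff.1 hf i h0
  rw [vR_mem v hm, h1] at h2
  exact lt_irrefl _ h2

theorem notMem_P_of_ne {z : C.Pt} (hz : ∀ f : HM C, z (f : C.R) ≠ 0 → v f = 0) {f : C.R}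
    (hf : z f ≠ 0) : f ∉ h.rval.P := fun hP => hf (P_le_ker h hz hP)

end

end Vale.Agent.P271.H84
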