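import Mathlib

/-!
# P271, row 71-DER, part 1: derivations of an affine domain, dual to regular parameters
-/

namespace Vale.Agent.P271.H84

open scoped TensorProduct
open KaehlerDifferential

section span

variable {k : Type*} [Field k] {R : Type*} [CommRing R] [Algebra k R] {ι : Type*} [Fintype ι]

/-- Regular parameters (up to translation) at the rational point `φ`. -/
def RegPar (φ : R →ₐ[k] k) (X : ι → R) : Prop :=
  ∀ s, φ s = 0 → ∃ h, φ h ≠ 0 ∧
    h * s ∈ Ideal.span (Set.range fun j => X j - algebraMap k R (φ (X j)))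

variable {φ : R →ₐ[k] k} {X : ι → R}

omit [Fintype ι] in
theorem RegPar.le_sup (hX : RegPar φ X) :
    (⊤ : Submodule R (Ω[R⁄k])) ≤
      Submodule.span R (Set.range fun j => D k R (X j)) ⊔
        (RingHom.ker φ : Ideal R) • (⊤ : Submodule R (Ω[R⁄k])) := by
  classical
  set N : Submodule R (Ω[R⁄k]) := Submodule.span R (Set.range fun j => D k R (X j)) with hN
  set p : Ideal R := RingHom.ker φ with hp
  have hmem : ∀ (a : R) (ω : Ω[R⁄k]), φ a = 0 →
      a • ω ∈ N ⊔ p • (⊤ : Submodule R (Ω[R⁄k])) := fun a ω ha =>
    (le_sup_right : _ ≤ N ⊔ p • (⊤ : Submodule R (Ω[R⁄k])))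
      (Submodule.smul_mem_smul (by simpa [hp, RingHom.mem_ker] using ha) trivial)
  refine (KaehlerDifferential.span_range_derivation k R).ge.trans ?_
  rw [Submodule.span_le]
  rintro _ ⟨s, rfl⟩
  -- reduce to `φ s = 0`
  set s' : R := s - algebraMap k R (φ s) with hs'
  have hDs : D k R s = D k R s' := by rw [hs', map_sub, Derivation.map_algebraMap, sub_zero]
  have hφs : φ s' = 0 := by
    rw [hs', map_sub, AlgHom.commutes, Algebra.algebraMap_self_apply, sub_self]
  obtain ⟨h, hh, hmem'⟩ := hX s' hφs
  -- `D` of an element of the span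
  have key : ∀ x ∈ Ideal.span (Set.range fun j => X j - algebraMap k R (φ (X j))),
      φ x = 0 ∧ D k R x ∈ N ⊔ p • (⊤ : Submodule R (Ω[R⁄k])) := by
    intro x hx
    refine Submodule.span_induction (p := fun x _ => φ x = 0 ∧
      D k R x ∈ N ⊔ p • (⊤ : Submodule R (Ω[R⁄k]))) ?_ ?_ ?_ ?_ hx
    · rintro _ ⟨j, rfl⟩
      refine ⟨by simp, ?_⟩
      have : D k R (X j - algebraMap k R (φ (X j))) = D k R (X j) := by
        rw [map_sub, Derivation.map_algebraMap, sub_zero]
      rw [this]
      exact (le_sup_left : N ≤ _) (Submodule.subset_span ⟨j, rfl⟩)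
    · simp
    · rintro x y _ _ ⟨hx1, hx2⟩ ⟨hy1, hy2⟩
      refine ⟨by rw [map_add, hx1, hy1, add_zero], ?_⟩
      rw [map_add]
      exact Submodule.add_mem _ hx2 hy2
    · rintro a x _ ⟨hx1, hx2⟩
      refine ⟨by rw [smul_eq_mul, map_mul, hx1, mul_zero], ?_⟩
      rw [smul_eq_mul, Derivation.leibniz]
      exact Submodule.add_mem _ (Submodule.smul_mem _ _ hx2) (hmem x _ hx1)
  have h1 := (key _ hmem').2
  rw [Derivation.leibniz] at h1
  have h2 : h • D k R s' ∈ N ⊔ p • (⊤ : Submodule R (Ω[R⁄k])) := by
    have := Submodule.sub_mem _ h1 (hmem s' (D k R h) hφs)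
    simpa using this
  have h3 : (h - algebraMap k R (φ h)) • D k R s' ∈ N ⊔ p • (⊤ : Submodule R (Ω[R⁄k])) :=
    hmem _ _ (by simp)
  have h4 : (algebraMap k R (φ h)) • D k R s' ∈ N ⊔ p • (⊤ : Submodule R (Ω[R⁄k])) := by
    have := Submodule.sub_mem _ h2 h3
    rwa [← sub_smul, sub_sub_cancel] at this
  have h5 := Submodule.smul_mem _ (algebraMap k R (φ h)⁻¹) h4
  rw [smul_smul, ← map_mul, inv_mul_cancel₀ hh, map_one, one_smul] at h5
  show D k R s ∈ _
  rw [hDs]
  exact h5

/-- Near the point `φ` the module of differentials is generated by the differentials of regular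
parameters. -/
theorem RegPar.exists_smul (hX : RegPar φ X) [Algebra.FiniteType k R] :
    ∃ h : R, φ h = 1 ∧ ∀ s : R, ∃ c : ι → R, h • D k R s = ∑ j, c j • D k R (X j) := by
  obtain ⟨r, hr1, hr2⟩ := Submodule.exists_sub_one_mem_and_smul_le_of_fg_of_le_sup
    (I := (RingHom.ker φ : Ideal R)) (N := Submodule.span R (Set.range fun j => D k R (X j)))
    (N' := (⊤ : Submodule R (Ω[R⁄k]))) (P := ⊤) (Module.Finite.fg_top) le_rfl hX.le_sup
  refine ⟨r, ?_, fun s => ?_⟩
  · have : φ (r - 1) = 0 := by simpa [RingHom.mem_ker] using hr1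
    rw [map_sub, map_one, sub_eq_zero] at this
    exact this
  · have h1 : r • D k R s ∈ Submodule.span R (Set.range fun j => D k R (X j)) :=
      hr2 (Submodule.smul_mem_pointwise_smul _ _ _ trivial)
    obtain ⟨c, hc⟩ := (Submodule.mem_span_range_iff_exists_fun R).1 h1
    exact ⟨c, hc.symm⟩

end span

section field

variable {k : Type*} [Field k] [CharZero k] {P : Type*} [CommRing P] [IsDomain P] [Algebra k P]
  {K : Type*} [Field K] [Algebra k K] [Algebra P K] [IsScalarTower k P K]

/-- Derivations extend along `P → K` when `K` is algebraic over the domain `P` of characteristic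
zero. -/
theorem exists_der_extend [FaithfulSMul P K] [Algebra.IsAlgebraic P K] (D₀ : Derivation k P K) :
    ∃ D : Derivation k K K, ∀ x : P, D (algebraMap P K x) = D₀ x := by
  let F := FractionRing P
  let _ : Algebra F K := FractionRing.liftAlgebra P K
  have : IsScalarTower P F K := FractionRing.isScalarTower_liftAlgebra P K
  have : CharZero F := charZero_of_injective_algebraMap (algebraMap k F).injective
  have : Algebra.IsAlgebraic F K := ⟨fun x => by
    obtain ⟨p, hp, hx⟩ := Algebra.IsAlgebraic.isAlgebraic (R := P) x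
    refine ⟨p.map (algebraMap P F), ?_, by simpa using hx⟩
    exact (Polynomial.map_ne_zero_iff (IsFractionRing.injective P F)).2 hp⟩
  have : Algebra.FormallyEtale F K := Algebra.FormallyEtale.of_isSeparable F K
  have : Algebra.FormallyEtale P F := Algebra.FormallyEtale.of_isLocalization (nonZeroDivisors P)
  have : Algebra.FormallyEtale P K := Algebra.FormallyEtale.comp P F K
  let L : Ω[P⁄k] →ₗ[P] K := D₀.liftKaehlerDifferential
  let L' : K ⊗[P] Ω[P⁄k] →ₗ[K] K := L.liftBaseChange K
  let L'' : Ω[K⁄k] →ₗ[K] K :=
    L' ∘ₗ (tensorKaehlerEquivOfFormallyEtale k P K).symm.toLinearMap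
  refine ⟨L''.compDer (D k K), fun x => ?_⟩
  show L' ((tensorKaehlerEquivOfFormallyEtale k P K).symm (D k K (algebraMap P K x))) = _
  rw [tensorKaehlerEquivOfFormallyEtale_symm_D_algebraMap]
  simp [L', L]

end field

section dim

variable {k : Type*} [Field k] {R : Type*} [CommRing R] [Algebra k R]

/-- Noether normalisation: an affine algebra of dimension at least `n` is algebraic over a
polynomial ring in at least `n` variables. -/
theorem exists_noether [Nontrivial R] [Algebra.FiniteType k R] {n : ℕ}
    (hdim : (n : WithBot ℕ∞) ≤ ringKrullDim R) :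
    ∃ s, n ≤ s ∧ ∃ g : MvPolynomial (Fin s) k →ₐ[k] R, Function.Injective g ∧ g.IsIntegral := by
  obtain ⟨s, g, hg, hint⟩ := exists_integral_inj_algHom_of_fg k R
  refine ⟨s, ?_, g, hg, hint⟩
  have h1 : ringKrullDim (MvPolynomial (Fin s) k) = (s : ℕ) := by
    rw [MvPolynomial.ringKrullDim_of_isNoetherianRing]
    simp [ringKrullDim_eq_zero_of_field]
  have h2 : ringKrullDim R ≤ ringKrullDim (MvPolynomial (Fin s) k) := by
    algebraize [g.toRingHom]
    refine Order.krullDim_le_of_strictMono
      (PrimeSpectrum.comap (algebraMap (MvPolynomial (Fin s) k) R)) ?_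
    intro I J hIJ
    exact Ideal.IsIntegral.comap_lt_comap hIJ
  rw [h1] at h2
  have := hdim.trans h2
  exact_mod_cast this

end dim

section main

variable {k : Type*} [Field k] [CharZero k] {R : Type*} [CommRing R] [IsDomain R] [Algebra k R]
  {φ : R →ₐ[k] k}

omit [CharZero k] [IsDomain R] in
/-- Derivations `R → R` from derivations `R → K` with values in `R`. -/
theorem exists_der_restrict {K : Type*} [Field K] [Algebra k K] [Algebra R K]
    [IsScalarTower k R K] [FaithfulSMul R K] (D : Derivation k R K)
    (hD : ∀ s, ∃ t : R, algebraMap R K t = D s) :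
    ∃ θ : Derivation k R R, ∀ s, algebraMap R K (θ s) = D s := by
  choose f hf using hD
  have inj : Function.Injective (algebraMap R K) := FaithfulSMul.algebraMap_injective R K
  refine ⟨{ toFun := f, map_add' := fun a b => ?_, map_smul' := fun c a => ?_,
            map_one_eq_zero' := ?_, leibniz' := fun a b => ?_ }, hf⟩
  · apply inj
    rw [hf, map_add, map_add, hf, hf]
  · apply inj
    rw [hf, RingHom.id_apply, Derivation.map_smul, Algebra.smul_def c (f a), map_mul, hf,
      ← IsScalarTower.algebraMap_apply, Algebra.smul_def]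
  · apply inj
    show algebraMap R K (f 1) = _
    rw [hf, map_zero, Derivation.map_one_eq_zero]
  · apply inj
    show algebraMap R K (f (a * b)) = algebraMap R K (a • f b + b • f a)
    rw [hf, Derivation.leibniz, map_add, smul_eq_mul, smul_eq_mul, map_mul, map_mul, hf, hf,
      Algebra.smul_def, Algebra.smul_def]

omit [CharZero k] [IsDomain R] in
theorem der_sum_apply {M : Type*} [AddCommGroup M] [Module R M] [Module k M] {ι : Type*}
    (s : Finset ι) (D : ι → Derivation k R M) (x : R) : (∑ i ∈ s, D i) x = ∑ i ∈ s, D i x := by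
  classical
  induction s using Finset.induction_on with
  | empty => simp
  | insert a s ha ih => rw [Finset.sum_insert ha, Finset.sum_insert ha, Derivation.add_apply, ih]

theorem RegPar.exists_der_aux [Algebra.FiniteType k R] (K : Type*) [Field K] [Algebra k K]
    [Algebra R K] [IsScalarTower k R K] [IsFractionRing R K] {n : ℕ}
    (hdim : (n : WithBot ℕ∞) ≤ ringKrullDim R) {X : Fin n → R} (hX : RegPar φ X) :
    ∃ (θ : Fin n → Derivation k R R) (h : R), φ h = 1 ∧
      ∀ i j, θ i (X j) = if i = j then h else 0 := by
  classical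
  obtain ⟨h, hφh, hh⟩ := hX.exists_smul
  have hh0 : h ≠ 0 := by rintro rfl; simp at hφh
  obtain ⟨s, hs, g, hg, hint⟩ := exists_noether (k := k) hdim
  let P := MvPolynomial (Fin s) k
  let _ : Algebra P R := g.toRingHom.toAlgebra
  let _ : Algebra P K := ((algebraMap R K).comp g.toRingHom).toAlgebra
  have _ : IsScalarTower P R K := IsScalarTower.of_algebraMap_eq fun _ => rfl
  have _ : IsScalarTower k P R := IsScalarTower.of_algebraMap_eq fun c => (g.commutes c).symm
  have _ : IsScalarTower k P K := IsScalarTower.of_algebraMap_eq fun c => by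
    rw [IsScalarTower.algebraMap_apply k R K, IsScalarTower.algebraMap_apply k P R]
    rfl
  have injRK : Function.Injective (algebraMap R K) := IsFractionRing.injective R K
  have hPK : Function.Injective (algebraMap P K) := injRK.comp hg
  have _ : FaithfulSMul P K := (faithfulSMul_iff_algebraMap_injective P K).2 hPK
  have _ : FaithfulSMul R K := (faithfulSMul_iff_algebraMap_injective R K).2 injRK
  have _ : Algebra.IsIntegral P R := ⟨hint⟩
  have _ : Algebra.IsAlgebraic R K := IsLocalization.isAlgebraic K (nonZeroDivisors R)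
  have _ : Algebra.IsAlgebraic P K := Algebra.IsAlgebraic.trans P R K
  have hD : ∀ i : Fin s, ∃ D : Derivation k K K, ∀ x : P, D (algebraMap P K x) =
      MvPolynomial.mkDerivation k (Pi.single i (1 : K)) x := fun i =>
    exists_der_extend (MvPolynomial.mkDerivation k (Pi.single i (1 : K)))
  choose D hD using hD
  -- the derivations of `R` into `K`
  let E : Fin s → Derivation k R K := fun i => (D i).compAlgebraMap R
  have hE : ∀ i j, E i (algebraMap P R (MvPolynomial.X j)) = if i = j then 1 else 0 := by
    intro i j
    show D i (algebraMap R K (algebraMap P R (MvPolynomial.X j))) = _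
    rw [← IsScalarTower.algebraMap_apply, hD, MvPolynomial.mkDerivation_X, Pi.single_apply]
    simp [eq_comm]
  -- every derivation is determined by its values at the parameters
  have hder : ∀ (F : Derivation k R K) (x : R) (c : Fin n → R),
      h • KaehlerDifferential.D k R x = ∑ j, c j • KaehlerDifferential.D k R (X j) →
      algebraMap R K h * F x = ∑ j, algebraMap R K (c j) * F (X j) := by
    intro F x c hc
    have := congrArg F.liftKaehlerDifferential hc
    simpa [Algebra.smul_def] using this
  have hinj : ∀ F : Derivation k R K, (∀ j, F (X j) = 0) → F = 0 := by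
    intro F hF
    ext x
    obtain ⟨c, hc⟩ := hh x
    have := hder F x c hc
    simp only [hF, mul_zero, Finset.sum_const_zero, mul_eq_zero] at this
    rcases this with h1 | h1
    · exact absurd (injRK (h1.trans (map_zero _).symm)) hh0
    · simpa using h1
  -- the rows of the matrix `E i (X j)` are linearly independent
  have hli : LinearIndependent K fun i : Fin s => fun j : Fin n => E i (X j) := by
    rw [Fintype.linearIndependent_iff]
    intro a ha i
    have h0 : (∑ i, a i • E i : Derivation k R K) = 0 := by
      apply hinj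
      intro j
      have := congrFun ha j
      simpa [der_sum_apply] using this
    have h1 := congrArg (fun F : Derivation k R K => F (algebraMap P R (MvPolynomial.X i))) h0
    simpa [der_sum_apply, hE] using h1
  have hsn : s ≤ n := by
    have := hli.fintype_card_le_finrank
    simpa using this
  obtain rfl : s = n := le_antisymm hsn hs
  let M : Matrix (Fin s) (Fin s) K := Matrix.of fun i j => E i (X j)
  have hM : IsUnit M := Matrix.linearIndependent_rows_iff_isUnit.1 hli
  have hMdet : IsUnit M.det := (Matrix.isUnit_iff_isUnit_det M).1 hM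
  let F : Fin s → Derivation k R K := fun i => ∑ l, M⁻¹ i l • E l
  have hF : ∀ i j, F i (X j) = if i = j then 1 else 0 := by
    intro i j
    have h1 : (M⁻¹ * M) i j = if i = j then 1 else 0 := by
      rw [Matrix.nonsing_inv_mul M hMdet, Matrix.one_apply]
    rw [← h1, Matrix.mul_apply]
    simp [F, der_sum_apply, M]
  have hG : ∀ i x, ∃ t : R, algebraMap R K t = (algebraMap R K h • F i) x := by
    intro i x
    obtain ⟨c, hc⟩ := hh x
    refine ⟨c i, ?_⟩
    have := hder (F i) x c hc
    simp only [hF] at this
    show _ = algebraMap R K h * F i x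
    rw [this]
    simp
  choose θ hθ using fun i => exists_der_restrict (algebraMap R K h • F i) (hG i)
  refine ⟨θ, h, hφh, fun i j => injRK ?_⟩
  rw [hθ]
  show algebraMap R K h * F i (X j) = _
  rw [hF]
  split_ifs <;> simp

/-- Vector fields dual to regular parameters, up to a function not vanishing at the point. -/
theorem RegPar.exists_der [Algebra.FiniteType k R] {n : ℕ}
    (hdim : (n : WithBot ℕ∞) ≤ ringKrullDim R) {X : Fin n → R} (hX : RegPar φ X) :
    ∃ (θ : Fin n → Derivation k R R) (h : R), φ h = 1 ∧
      ∀ i j, θ i (X j) = if i = j then h else 0 :=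
  hX.exists_der_aux (FractionRing R) hdim

end main

end Vale.Agent.P271.H84
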