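import Vale.Agent.P271.H84.DerAlg
import Vale.Agent.P271.Sch.Hub

/-!
# P271, row 71-DER, part 2: homogeneous vector fields dual to regular parameters
-/

namespace Vale.Agent.P271.H84

open DirectSum Filter

section comp

variable {k : Type*} [Field k] {R : Type*} [CommRing R] [Algebra k R] (A : ℕ → Submodule k R)
  [GradedAlgebra A]

/-- The homogeneous component of degree `e` of a derivation. -/
theorem exists_comp (D : Derivation k R R) (e : ℕ) :
    ∃ D' : Derivation k R R, ∀ m, ∀ s ∈ A m, D' s = GradedAlgebra.proj A (m + e) (D s) := by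
  classical
  let L : R →ₗ[k] R := (DirectSum.toModule k ℕ R fun m =>
      (GradedAlgebra.proj A (m + e)) ∘ₗ (D : R →ₗ[k] R) ∘ₗ (A m).subtype) ∘ₗ
    (DirectSum.decomposeLinearEquiv A).toLinearMap
  have hL : ∀ m, ∀ s ∈ A m, L s = GradedAlgebra.proj A (m + e) (D s) := by
    intro m s hs
    show (DirectSum.toModule k ℕ R _) (DirectSum.decompose A s) = _
    lift s to A m using hs
    rw [DirectSum.decompose_coe]
    erw [DirectSum.toModule_lof]
    rfl
  have hleib : ∀ a b, L (a * b) = a * L b + b * L a := by
    intro a b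
    refine DirectSum.Decomposition.inductionOn A (motive := fun a => L (a * b) = a * L b + b * L a)
      ?_ ?_ ?_ a
    · simp
    · intro i a
      refine DirectSum.Decomposition.inductionOn A
        (motive := fun b => L (a * b) = a * L b + b * L a) ?_ ?_ ?_ b
      · simp
      · intro j b
        rw [hL (i + j) _ (SetLike.mul_mem_graded a.2 b.2), hL i _ a.2, hL j _ b.2,
          Derivation.leibniz, map_add, GradedAlgebra.proj_apply, GradedAlgebra.proj_apply,
          GradedAlgebra.proj_apply, GradedAlgebra.proj_apply, smul_eq_mul, smul_eq_mul]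
        have h1 : i + j + e = i + (j + e) := by ring
        have h2 : i + j + e = j + (i + e) := by ring
        rw [h1, DirectSum.coe_decompose_mul_add_of_left_mem A a.2, ← h1, h2,
          DirectSum.coe_decompose_mul_add_of_left_mem A b.2]
      · intro b b' hb hb'
        rw [mul_add, map_add, hb, hb', map_add]
        ring
    · intro a a' ha ha'
      rw [add_mul, map_add, ha, ha', map_add]
      ring
  refine ⟨Derivation.mk' L fun a b => by simpa using hleib a b, fun m s hs => hL m s hs⟩

theorem eventually_sum_proj {m q : ℕ} (hmq : m ≤ q) {u : R} (hu : u ∈ A q) (x : R) :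
    ∀ᶠ E in atTop, ∑ e ∈ Finset.range E, GradedAlgebra.proj A (m + e) (u * x) = u * x := by
  classical
  obtain ⟨N, hN⟩ : ∃ N, ∀ j, N ≤ j → ((DirectSum.decompose A (u * x) j : A j) : R) = 0 := by
    refine ⟨(DirectSum.decompose A (u * x)).support.sup id + 1, fun j hj => ?_⟩
    have : j ∉ (DirectSum.decompose A (u * x)).support := by
      intro h
      have := Finset.le_sup (f := id) h
      simp only [id] at this
      omega
    rw [DFinsupp.notMem_support_iff] at this
    rw [this]; rfl
  filter_upwards [eventually_ge_atTop N] with E hE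
  have h1 : u * x = ∑ j ∈ Finset.range (m + E), ((DirectSum.decompose A (u * x) j : A j) : R) := by
    conv_lhs => rw [← DirectSum.sum_support_decompose A (u * x)]
    refine Finset.sum_subset ?_ ?_
    · intro j hj
      rw [Finset.mem_range]
      by_contra hcon
      rw [DFinsupp.mem_support_iff] at hj
      exact hj (Subtype.ext (hN j (by omega)))
    · intro j _ hj
      rw [DFinsupp.notMem_support_iff] at hj
      rw [hj]; rfl
  conv_rhs => rw [h1]
  rw [Finset.sum_range_add]
  rw [Finset.sum_eq_zero (s := Finset.range m), zero_add]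
  · rfl
  · intro j hj
    rw [Finset.mem_range] at hj
    exact DirectSum.coe_decompose_mul_of_left_mem_of_not_le A hu (by omega)

/-- Every derivation is, after multiplication by a homogeneous element of large degree, a sum of
homogeneous derivations of degree `≥ 0` on finitely many given elements. -/
theorem exists_sum_comp {ι : Type*} [Finite ι] (X : ι → R) (D : Derivation k R R) :
    ∃ q₀, ∀ q ≥ q₀, ∀ u ∈ A q, ∃ (E : ℕ) (D' : ℕ → Derivation k R R),
      (∀ e m, ∀ s ∈ A m, D' e s ∈ A (m + e)) ∧
      ∀ j, u * D (X j) = ∑ e ∈ Finset.range E, D' e (X j) := by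
  classical
  obtain ⟨_⟩ := nonempty_fintype ι
  refine ⟨Finset.univ.sup fun j => (DirectSum.decompose A (X j)).support.sup id, ?_⟩
  intro q hq u hu
  choose D' hD' using fun e => exists_comp A (u • D) e
  have hX : ∀ j, ∀ m ∈ (DirectSum.decompose A (X j)).support, m ≤ q := by
    intro j m hm
    refine le_trans ?_ hq
    refine le_trans ?_ (Finset.le_sup (Finset.mem_univ j))
    exact Finset.le_sup (f := id) hm
  have h1 : ∀ j, ∀ᶠ E in atTop, ∀ m ∈ (DirectSum.decompose A (X j)).support,
      ∑ e ∈ Finset.range E, D' e ((DirectSum.decompose A (X j) m : A m) : R) =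
        u * D ((DirectSum.decompose A (X j) m : A m) : R) := by
    intro j
    rw [Filter.eventually_all_finset]
    intro m hm
    filter_upwards [eventually_sum_proj A (hX j m hm) hu
      (D ((DirectSum.decompose A (X j) m : A m) : R))] with E hE
    rw [← hE]
    refine Finset.sum_congr rfl fun e _ => ?_
    rw [hD' e m _ (DirectSum.decompose A (X j) m).2]
    rfl
  have h2 : ∀ᶠ E in atTop, ∀ j, ∀ m ∈ (DirectSum.decompose A (X j)).support,
      ∑ e ∈ Finset.range E, D' e ((DirectSum.decompose A (X j) m : A m) : R) =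
        u * D ((DirectSum.decompose A (X j) m : A m) : R) := by
    rw [Filter.eventually_all]
    exact h1
  obtain ⟨E, hE⟩ := h2.exists
  refine ⟨E, D', fun e m s hs => ?_, fun j => ?_⟩
  · rw [hD' e m s hs]
    exact SetLike.coe_mem _
  · conv_lhs => rw [← DirectSum.sum_support_decompose A (X j)]
    rw [map_sum, Finset.mul_sum]
    have h3 : ∀ e, D' e (X j) = ∑ m ∈ (DirectSum.decompose A (X j)).support,
        D' e ((DirectSum.decompose A (X j) m : A m) : R) := by
      intro e
      conv_lhs => rw [← DirectSum.sum_support_decompose A (X j)]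
      rw [map_sum]
    simp only [h3]
    rw [Finset.sum_comm]
    exact Finset.sum_congr rfl fun m hm => (hE j m hm).symm

end comp

/-- A spanning set of `ι → k` contains a family with nonzero determinant. -/
theorem exists_det_ne_zero {k : Type*} [Field k] {ι : Type*} [Fintype ι] [DecidableEq ι]
    {S : Set (ι → k)} (hS : Submodule.span k S = ⊤) :
    ∃ v : ι → ι → k, (∀ i, v i ∈ S) ∧ (Matrix.of v).det ≠ 0 := by
  obtain ⟨b, hbS, hspan, hli⟩ := exists_linearIndependent k S
  let B : Module.Basis b k (ι → k) := Module.Basis.mk hli (by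
    rw [Subtype.range_coe, hspan, hS])
  let e : ι ≃ b := (Pi.basisFun k ι).indexEquiv B
  refine ⟨fun i => (e i : ι → k), fun i => hbS (e i).2, ?_⟩
  have h1 : LinearIndependent k fun i => ((e i : ι → k)) := hli.comp e e.injective
  have h2 : IsUnit (Matrix.of fun i => (e i : ι → k)) :=
    Matrix.linearIndependent_rows_iff_isUnit.1 h1
  exact ((Matrix.isUnit_iff_isUnit_det _).1 h2).ne_zero

section graded

variable {k : Type*} [Field k] [CharZero k] {R : Type*} [CommRing R] [IsDomain R] [Algebra k R]
  (A : ℕ → Submodule k R) [GradedAlgebra A]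

/-- Homogeneous vector fields with nonzero determinant at the point `φ` with respect to regular
parameters at `φ`. -/
theorem RegPar.exists_hom_der [Algebra.FiniteType k R] {φ : R →ₐ[k] k} {n : ℕ}
    (hu : ∃ q₀, ∀ q ≥ q₀, ∃ u ∈ A q, φ u ≠ 0)
    (hdim : (n : WithBot ℕ∞) ≤ ringKrullDim R) {X : Fin n → R} (hX : RegPar φ X) :
    ∃ (M : ℕ) (θ : Fin n → Derivation k R R), (∀ i m, ∀ s ∈ A m, θ i s ∈ A (m + M)) ∧
      (Matrix.of fun i j => φ (θ i (X j))).det ≠ 0 := by
  classical
  obtain ⟨θ, h, hφh, hθ⟩ := hX.exists_der hdim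
  let S : Set (Fin n → k) := {v | ∃ (e : ℕ) (D : Derivation k R R),
    (∀ m, ∀ s ∈ A m, D s ∈ A (m + e)) ∧ v = fun j => φ (D (X j))}
  obtain ⟨q₀, hq₀⟩ := hu
  have hspan : Submodule.span k S = ⊤ := by
    rw [eq_top_iff, ← (Pi.basisFun k (Fin n)).span_eq, Submodule.span_le]
    rintro _ ⟨i, rfl⟩
    rw [Pi.basisFun_apply]
    obtain ⟨q₁, hq₁⟩ := exists_sum_comp A X (θ i)
    obtain ⟨u, hu, hφu⟩ := hq₀ (max q₀ q₁) (le_max_left _ _)
    obtain ⟨E, D', hD'1, hD'2⟩ := hq₁ _ (le_max_right _ _) u hu
    have h1 : φ u • (Pi.single i (1 : k) : Fin n → k) =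
        ∑ e ∈ Finset.range E, fun j => φ (D' e (X j)) := by
      funext j
      rw [Finset.sum_apply, ← map_sum, ← hD'2 j, map_mul, hθ, Pi.smul_apply, smul_eq_mul]
      congr 1
      rw [Pi.single_apply]
      by_cases hij : i = j
      · rw [if_pos hij, if_pos hij.symm, hφh]
      · rw [if_neg hij, if_neg (Ne.symm hij), map_zero]
    have h2 : φ u • (Pi.single i (1 : k) : Fin n → k) ∈ Submodule.span k S := by
      rw [h1]
      exact Submodule.sum_mem _ fun e _ => Submodule.subset_span ⟨e, D' e, hD'1 e, rfl⟩
    have h3 := Submodule.smul_mem _ (φ u)⁻¹ h2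
    rwa [smul_smul, inv_mul_cancel₀ hφu, one_smul] at h3
  obtain ⟨v, hvS, hdet⟩ := exists_det_ne_zero hspan
  choose e D hD hv using hvS
  let M : ℕ := Finset.univ.sup e + q₀
  have hw : ∀ i, ∃ w ∈ A (M - e i), φ w ≠ 0 := fun i => by
    refine hq₀ _ ?_
    have : e i ≤ Finset.univ.sup e := Finset.le_sup (Finset.mem_univ i)
    omega
  choose w hwA hw0 using hw
  refine ⟨M, fun i => w i • D i, fun i m s hs => ?_, ?_⟩
  · have h1 : w i * D i s ∈ A ((M - e i) + (m + e i)) := SetLike.mul_mem_graded (hwA i) (hD i m s hs)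
    have h2 : (M - e i) + (m + e i) = m + M := by
      have : e i ≤ Finset.univ.sup e := Finset.le_sup (Finset.mem_univ i)
      omega
    rw [h2] at h1
    exact h1
  · have h1 : (Matrix.of fun i j => φ ((w i • D i) (X j))) =
        Matrix.of fun i j => φ (w i) * (Matrix.of v) i j := by
      ext i j
      rw [Matrix.of_apply, Matrix.of_apply, Matrix.of_apply, hv i, Derivation.smul_apply,
        smul_eq_mul, map_mul]
    rw [h1, Matrix.det_mul_column]
    exact mul_ne_zero (Finset.prod_ne_zero_iff.2 fun i _ => hw0 i) hdet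

end graded

end Vale.Agent.P271.H84
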