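import Vale.Agent.P271.Filt.Basic

/-!
# P271 / JUMPS: nonnegative real valuations on a noetherian domain
(helper84)

* `RVal v`: `v : R → ℝ` is a nonnegative real valuation (only the values at nonzero elements are
  used); valuation ideals `RVal.b a = {v ≥ a}`, `RVal.bgt a = {v > a}`, centre `RVal.P = {v > 0}`.
* `RVal.finite_values`: for every `τ` only finitely many values of `v` are `≤ τ`.
* `RVal.exists_gap`: uniform gap between the values below `τ`.
* `HVal 𝒜 v`: a nonnegative real valuation on the nonzero homogeneous elements of a graded domain;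
  `HVal.exists_ext`: it extends to a valuation of the ring, with homogeneous valuation ideals.
-/

set_option linter.all false

open Module DirectSum

namespace Vale.Agent.P271.H84

open Vale.Agent.P271.Filt

section RVal

variable {R : Type*} [CommRing R]

/-- A nonnegative real valuation; only the values at nonzero elements matter. -/
structure RVal (v : R → ℝ) : Prop where
  nonneg : ∀ f, f ≠ 0 → 0 ≤ v f
  mul : ∀ f g, f ≠ 0 → g ≠ 0 → v (f * g) = v f + v g
  add : ∀ f g, f ≠ 0 → g ≠ 0 → f + g ≠ 0 → min (v f) (v g) ≤ v (f + g)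

namespace RVal

variable {v : R → ℝ}

theorem one [Nontrivial R] (h : RVal v) : v 1 = 0 := by
  have := h.mul 1 1 one_ne_zero one_ne_zero
  rw [one_mul] at this
  linarith

theorem unit [Nontrivial R] (h : RVal v) {u : R} (hu : IsUnit u) : v u = 0 := by
  obtain ⟨w, hw⟩ := hu.exists_right_inv
  have hu0 : u ≠ 0 := hu.ne_zero
  have hw0 : w ≠ 0 := by
    rintro rfl
    rw [mul_zero] at hw
    exact zero_ne_one hw
  have h1 := h.mul u w hu0 hw0
  rw [hw, h.one] at h1
  linarith [h.nonneg u hu0, h.nonneg w hw0]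

theorem neg [IsDomain R] (h : RVal v) {f : R} (hf : f ≠ 0) : v (-f) = v f := by
  have h1 := h.mul (-1) f (neg_ne_zero.mpr one_ne_zero) hf
  rw [h.unit (isUnit_one.neg), zero_add, neg_one_mul] at h1
  exact h1

variable [IsDomain R]

/-- the valuation ideal `{v ≥ a}` -/
def b (h : RVal v) (a : ℝ) : Ideal R where
  carrier := {f | f ≠ 0 → a ≤ v f}
  zero_mem' := fun h => absurd rfl h
  add_mem' := by
    intro x y hx hy hxy
    by_cases h1 : x = 0
    · subst h1
      rw [zero_add] at hxy ⊢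
      exact hy hxy
    by_cases h2 : y = 0
    · subst h2
      rw [add_zero] at hxy ⊢
      exact hx hxy
    exact le_trans (le_min (hx h1) (hy h2)) (h.add x y h1 h2 hxy)
  smul_mem' := by
    intro c x hx hcx
    rw [smul_eq_mul] at hcx ⊢
    have hc : c ≠ 0 := left_ne_zero_of_mul hcx
    have hx0 : x ≠ 0 := right_ne_zero_of_mul hcx
    rw [h.mul c x hc hx0]
    linarith [hx hx0, h.nonneg c hc]

/-- the valuation ideal `{v > a}` -/
def bgt (h : RVal v) (a : ℝ) : Ideal R where
  carrier := {f | f ≠ 0 → a < v f}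
  zero_mem' := fun h => absurd rfl h
  add_mem' := by
    intro x y hx hy hxy
    by_cases h1 : x = 0
    · subst h1
      rw [zero_add] at hxy ⊢
      exact hy hxy
    by_cases h2 : y = 0
    · subst h2
      rw [add_zero] at hxy ⊢
      exact hx hxy
    exact lt_of_lt_of_le (lt_min (hx h1) (hy h2)) (h.add x y h1 h2 hxy)
  smul_mem' := by
    intro c x hx hcx
    rw [smul_eq_mul] at hcx ⊢
    have hc : c ≠ 0 := left_ne_zero_of_mul hcx
    have hx0 : x ≠ 0 := right_ne_zero_of_mul hcx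
    rw [h.mul c x hc hx0]
    linarith [hx hx0, h.nonneg c hc]

variable (h : RVal v)
include h

theorem mem_b {a : ℝ} {f : R} : f ∈ h.b a ↔ (f ≠ 0 → a ≤ v f) := Iff.rfl

theorem mem_bgt {a : ℝ} {f : R} : f ∈ h.bgt a ↔ (f ≠ 0 → a < v f) := Iff.rfl

theorem mem_b_of_ne {a : ℝ} {f : R} (hf : f ≠ 0) : f ∈ h.b a ↔ a ≤ v f :=
  ⟨fun hx => hx hf, fun hx _ => hx⟩

theorem mem_bgt_of_ne {a : ℝ} {f : R} (hf : f ≠ 0) : f ∈ h.bgt a ↔ a < v f :=
  ⟨fun hx => hx hf, fun hx _ => hx⟩

theorem bgt_le_b (a : ℝ) : h.bgt a ≤ h.b a := fun _ hf h0 => (hf h0).le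

theorem b_antitone : Antitone h.b := fun _ _ hab _ hf h0 => hab.trans (hf h0)

theorem bgt_antitone : Antitone h.bgt := fun _ _ hab _ hf h0 => hab.trans_lt (hf h0)

theorem b_zero : h.b 0 = ⊤ := by
  rw [Ideal.eq_top_iff_one]
  intro h0
  rw [h.one]

/-- the centre of the valuation -/
def P : Ideal R := h.bgt 0

theorem mem_P {f : R} : f ∈ h.P ↔ (f ≠ 0 → 0 < v f) := Iff.rfl

theorem notMem_P {f : R} : f ∉ h.P ↔ f ≠ 0 ∧ v f = 0 := by
  rw [mem_P]
  push Not
  constructor
  · rintro ⟨h1, h2⟩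
    exact ⟨h1, le_antisymm h2 (h.nonneg f h1)⟩
  · rintro ⟨h1, h2⟩
    exact ⟨h1, h2.le⟩

instance P_isPrime : h.P.IsPrime where
  ne_top' := by
    intro htop
    have h1 : (1 : R) ∈ h.P := by rw [htop]; exact Submodule.mem_top
    have := h1 one_ne_zero
    rw [h.one] at this
    exact lt_irrefl _ this
  mem_or_mem' := by
    intro x y hxy
    by_contra hcon
    push Not at hcon
    obtain ⟨hx, hy⟩ := hcon
    rw [h.notMem_P] at hx hy
    have h1 := hxy (mul_ne_zero hx.1 hy.1)
    rw [h.mul x y hx.1 hy.1, hx.2, hy.2] at h1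
    linarith

/-- the graded pieces are killed by the centre -/
theorem P_mul_b {a : ℝ} {g s : R} (hg : g ∈ h.P) (hs : s ∈ h.b a) : g * s ∈ h.bgt a := by
  intro h0
  have hg0 : g ≠ 0 := left_ne_zero_of_mul h0
  have hs0 : s ≠ 0 := right_ne_zero_of_mul h0
  rw [h.mul g s hg0 hs0]
  linarith [hg hg0, hs hs0]

/-- the graded pieces are torsion free over `R / P` -/
theorem mem_b_of_mul {a : ℝ} {g s : R} (hg : g ∉ h.P) (hs : g * s ∈ h.b a) : s ∈ h.b a := by
  rw [h.notMem_P] at hg
  intro h0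
  have h1 := hs (mul_ne_zero hg.1 h0)
  rw [h.mul g s hg.1 h0] at h1
  linarith [hg.2]

theorem mem_bgt_of_mul {a : ℝ} {g s : R} (hg : g ∉ h.P) (hs : g * s ∈ h.bgt a) : s ∈ h.bgt a := by
  rw [h.notMem_P] at hg
  intro h0
  have h1 := hs (mul_ne_zero hg.1 h0)
  rw [h.mul g s hg.1 h0] at h1
  linarith [hg.2]

/-- If all terms have different values `< a`... : the value of a sum is the minimum. -/
theorem v_add_of_lt {x y : R} (hx : x ≠ 0) (hy : y ≠ 0) (hlt : v x < v y) :
    x + y ≠ 0 ∧ v (x + y) = v x := by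
  have h0 : x + y ≠ 0 := by
    intro h0
    have : x = -y := eq_neg_of_add_eq_zero_left h0
    rw [this, h.neg hy] at hlt
    exact lt_irrefl _ hlt
  refine ⟨h0, le_antisymm ?_ ?_⟩
  · by_contra hlt'
    push Not at hlt'
    have h1 := h.add (x + y) (-y) h0 (neg_ne_zero.mpr hy) (by simpa using hx)
    rw [h.neg hy, add_neg_cancel_right] at h1
    exact absurd h1 (not_le.mpr (lt_min hlt' hlt))
  · have h1 := h.add x y hx hy h0
    rwa [min_eq_left hlt.le] at h1

/-- a sum with one dominant term -/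
theorem notMem_of_dominant {a : ℝ} {x y : R} (hx : x ∉ h.b a)
    (hy : y ∈ h.bgt (v x)) : x + y ∉ h.b a := by
  have hx' : x ≠ 0 ∧ v x < a := by
    rw [mem_b] at hx
    push Not at hx
    exact hx
  by_cases hy0 : y = 0
  · rw [hy0, add_zero]
    exact hx
  · obtain ⟨h1, h2⟩ := h.v_add_of_lt hx'.1 hy0 (hy hy0)
    rw [h.mem_b_of_ne h1, h2]
    exact not_le.mpr hx'.2

/-- **Finitely many values in a short interval.** If the centre has `v ≥ δ` then the set of values
in `[c, c + δ)` is finite. -/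
theorem finite_values_short [IsNoetherianRing R] {δ : ℝ} (hδ : ∀ f ∈ h.P, f ∈ h.b δ) (c : ℝ) :
    {x : ℝ | c ≤ x ∧ x < c + δ ∧ ∃ f, f ≠ 0 ∧ v f = x}.Finite := by
  classical
  set S : Set ℝ := {x : ℝ | c ≤ x ∧ x < c + δ ∧ ∃ f, f ≠ 0 ∧ v f = x} with hS
  obtain ⟨T, hT⟩ : (h.b c).FG := IsNoetherian.noetherian _
  -- representatives
  have h1 : ∀ x : S, ∃ f, f ≠ 0 ∧ v f = (x : ℝ) := fun x => x.2.2.2
  choose s hs0 hsv using h1
  have h2 : ∀ x : S, ∃ α : T → R, ∑ t : T, α t * (t : R) = s x := by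
    intro x
    have hx : s x ∈ Ideal.span (T : Set R) := by
      rw [show Ideal.span (T : Set R) = h.b c from hT, h.mem_b_of_ne (hs0 x), hsv x]
      exact x.2.1
    rw [Ideal.span, Submodule.mem_span_finset] at hx
    obtain ⟨α, -, hα⟩ := hx
    refine ⟨fun t => α t, ?_⟩
    rw [← hα, ← Finset.sum_coe_sort T (fun t => α t • t)]
    rfl
  choose α hα using h2
  have hli : LinearIndependent (R ⧸ h.P)
      (fun x : S => (fun t : T => Ideal.Quotient.mk h.P (α x t))) := by
    rw [linearIndependent_iff']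
    intro F g hg
    by_contra hcon
    push Not at hcon
    -- lift the coefficients
    have h3 : ∀ x : S, ∃ r : R, Ideal.Quotient.mk h.P r = g x :=
      fun x => Ideal.Quotient.mk_surjective _
    choose r hr using h3
    have h4 : ∑ x ∈ F, r x * s x ∈ h.b (c + δ) := by
      have h5 : ∑ x ∈ F, r x * s x = ∑ t : T, (∑ x ∈ F, r x * α x t) * (t : R) := by
        calc ∑ x ∈ F, r x * s x = ∑ x ∈ F, ∑ t : T, r x * α x t * (t : R) := by
              refine Finset.sum_congr rfl fun x _ => ?_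
              rw [← hα x, Finset.mul_sum]
              refine Finset.sum_congr rfl fun t _ => ?_
              ring
          _ = ∑ t : T, ∑ x ∈ F, r x * α x t * (t : R) := Finset.sum_comm
          _ = _ := by
              refine Finset.sum_congr rfl fun t _ => ?_
              rw [Finset.sum_mul]
      rw [h5]
      refine Ideal.sum_mem _ fun t _ => ?_
      have h6 : ∑ x ∈ F, r x * α x t ∈ h.P := by
        rw [← Ideal.Quotient.eq_zero_iff_mem, map_sum]
        have h7 := congrFun hg t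
        rw [Finset.sum_apply] at h7
        rw [← (show (0 : T → R ⧸ h.P) t = 0 from rfl), ← h7]
        refine Finset.sum_congr rfl fun x _ => ?_
        rw [map_mul, hr]
        rfl
      have h8 := hδ _ h6
      have h9 : (t : R) ∈ h.b c := by
        rw [← hT]
        exact Submodule.subset_span t.2
      intro h0
      have h10 := left_ne_zero_of_mul h0
      have h11 := right_ne_zero_of_mul h0
      rw [h.mul _ _ h10 h11]
      linarith [h8 h10, h9 h11]
    -- the dominant term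
    set G : Finset S := F.filter fun x => r x ∉ h.P with hG
    have hGne : G.Nonempty := by
      obtain ⟨x, hxF, hx⟩ := hcon
      refine ⟨x, Finset.mem_filter.2 ⟨hxF, fun hxP => hx ?_⟩⟩
      rw [← hr x, Ideal.Quotient.eq_zero_iff_mem]
      exact hxP
    obtain ⟨x0, hx0, hmin⟩ := G.exists_min_image (fun x : S => (x : ℝ)) hGne
    have hx0F : x0 ∈ F := (Finset.mem_filter.1 hx0).1
    have hx0P : r x0 ∉ h.P := (Finset.mem_filter.1 hx0).2
    have hv0 : r x0 * s x0 ≠ 0 ∧ v (r x0 * s x0) = x0 := by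
      rw [h.notMem_P] at hx0P
      refine ⟨mul_ne_zero hx0P.1 (hs0 x0), ?_⟩
      rw [h.mul _ _ hx0P.1 (hs0 x0), hx0P.2, hsv, zero_add]
    rw [← Finset.add_sum_erase F _ hx0F] at h4
    refine h.notMem_of_dominant (a := c + δ) ?_ ?_ h4
    · rw [h.mem_b_of_ne hv0.1, hv0.2]
      exact not_le.mpr x0.2.2.1
    · refine Ideal.sum_mem _ fun x hx => ?_
      obtain ⟨hne, hxF⟩ := Finset.mem_erase.1 hx
      rw [hv0.2]
      by_cases hxP : r x ∈ h.P
      · intro h0
        have h10 := left_ne_zero_of_mul h0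
        rw [h.mul _ _ h10 (hs0 x), hsv]
        have := hδ _ hxP h10
        have h12 := x.2.1
        have h13 := x0.2.2.1
        linarith
      · have h14 := h.notMem_P.1 hxP
        intro h0
        rw [h.mul _ _ h14.1 (hs0 x), hsv, h14.2, zero_add]
        have h15 := hmin x (Finset.mem_filter.2 ⟨hxF, hxP⟩)
        refine lt_of_le_of_ne h15 fun h16 => hne ?_
        exact Subtype.ext h16.symm
  have := hli.finite
  exact Set.toFinite S

theorem exists_delta [IsNoetherianRing R] : ∃ δ : ℝ, 0 < δ ∧ ∀ f ∈ h.P, f ∈ h.b δ := by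
  classical
  obtain ⟨T, hT⟩ : (h.P).FG := IsNoetherian.noetherian _
  by_cases hne : (T.filter fun t => t ≠ 0).Nonempty
  · obtain ⟨t0, ht0, hmin⟩ := (T.filter fun t => t ≠ 0).exists_min_image v hne
    refine ⟨v t0, ?_, ?_⟩
    · have h1 := (Finset.mem_filter.1 ht0)
      have h2 : t0 ∈ h.P := by
        rw [← hT]
        exact Submodule.subset_span h1.1
      exact h2 h1.2
    · intro f hf
      rw [← hT] at hf
      have h3 : Submodule.span R (T : Set R) ≤ h.b (v t0) := by
        rw [Submodule.span_le]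
        intro t ht ht0'
        exact hmin t (Finset.mem_filter.2 ⟨ht, ht0'⟩)
      exact h3 hf
  · refine ⟨1, one_pos, fun f hf => ?_⟩
    have h4 : f = 0 := by
      rw [← hT] at hf
      have h5 : Submodule.span R (T : Set R) ≤ ⊥ := by
        rw [Submodule.span_le]
        intro t ht
        by_contra hcon
        exact hne ⟨t, Finset.mem_filter.2 ⟨ht, hcon⟩⟩
      exact h5 hf
    rw [h4]
    exact zero_mem _

/-- **Finitely many values below `τ`.** -/
theorem finite_values [IsNoetherianRing R] (τ : ℝ) :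
    {x : ℝ | x ≤ τ ∧ ∃ f, f ≠ 0 ∧ v f = x}.Finite := by
  obtain ⟨δ, hδ0, hδ⟩ := h.exists_delta
  obtain ⟨N, hN⟩ := exists_nat_gt (τ / δ)
  have h1 : (⋃ j ∈ Finset.range (N + 1),
      {x : ℝ | j * δ ≤ x ∧ x < j * δ + δ ∧ ∃ f, f ≠ 0 ∧ v f = x}).Finite := by
    refine Set.Finite.biUnion (Finset.finite_toSet _) fun j _ => ?_
    exact h.finite_values_short hδ (j * δ)
  refine h1.subset ?_
  rintro x ⟨hx, f, hf, hfx⟩
  have hx0 : 0 ≤ x := hfx ▸ h.nonneg f hf
  have h2 : ((⌊x / δ⌋₊ : ℕ) : ℝ) ≤ x / δ := Nat.floor_le (by positivity)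
  have h3 : x / δ < (⌊x / δ⌋₊ : ℕ) + 1 := Nat.lt_floor_add_one _
  rw [le_div_iff₀ hδ0] at h2
  rw [div_lt_iff₀ hδ0] at h3
  simp only [Set.mem_iUnion, Finset.mem_range, Set.mem_setOf_eq, exists_prop]
  refine ⟨⌊x / δ⌋₊, ?_, h2, by linarith, f, hf, hfx⟩
  have h4 : x / δ < N := lt_of_le_of_lt (div_le_div_of_nonneg_right hx hδ0.le) hN
  have h5 : ⌊x / δ⌋₊ < N := by
    rw [Nat.floor_lt (by positivity)]
    exact h4
  omega

/-- **Uniform gap below `τ`.** -/
theorem exists_gap [IsNoetherianRing R] (τ : ℝ) : ∃ δ : ℝ, 0 < δ ∧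
    ∀ f g, f ≠ 0 → g ≠ 0 → v f ≤ τ → v f < v g → v f + δ ≤ v g := by
  classical
  have hfin := h.finite_values (τ + 1)
  set S := hfin.toFinset with hS
  set D := ((S ×ˢ S).filter fun p => p.1 < p.2).image (fun p => p.2 - p.1) with hD
  have hpos : ∀ d ∈ D, 0 < d := by
    intro d hd
    obtain ⟨p, hp, rfl⟩ := Finset.mem_image.1 hd
    have := (Finset.mem_filter.1 hp).2
    linarith
  obtain ⟨δ, hδ0, hδ1, hδ⟩ : ∃ δ : ℝ, 0 < δ ∧ δ ≤ 1 ∧ ∀ d ∈ D, δ ≤ d := by
    by_cases hne : D.Nonempty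
    · obtain ⟨d0, hd0, hmin⟩ := D.exists_min_image id hne
      exact ⟨min d0 1, lt_min (hpos d0 hd0) one_pos, min_le_right _ _,
        fun d hd => le_trans (min_le_left _ _) (hmin d hd)⟩
    · exact ⟨1, one_pos, le_rfl, fun d hd => absurd ⟨d, hd⟩ hne⟩
  refine ⟨δ, hδ0, fun f g hf hg hfτ hlt => ?_⟩
  by_cases hg1 : v g ≤ τ + 1
  · have h1 : v f ∈ S := by
      rw [hS, Set.Finite.mem_toFinset]
      exact ⟨by linarith, f, hf, rfl⟩
    have h2 : v g ∈ S := by
      rw [hS, Set.Finite.mem_toFinset]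
      exact ⟨hg1, g, hg, rfl⟩
    have h3 := hδ (v g - v f) (Finset.mem_image.2 ⟨(v f, v g),
      Finset.mem_filter.2 ⟨Finset.mk_mem_product h1 h2, hlt⟩, rfl⟩)
    linarith
  · push Not at hg1
    linarith

/-- The jump set below `τ`, as a finset. -/
noncomputable def jumps [IsNoetherianRing R] (τ : ℝ) : Finset ℝ := (h.finite_values τ).toFinset

theorem mem_jumps [IsNoetherianRing R] {τ x : ℝ} :
    x ∈ h.jumps τ ↔ x ≤ τ ∧ ∃ f, f ≠ 0 ∧ v f = x := by
  rw [jumps, Set.Finite.mem_toFinset]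
  rfl

theorem b_eq_bgt_of_notMem_jumps [IsNoetherianRing R] {τ a : ℝ} (ha : a ≤ τ)
    (hj : a ∉ h.jumps τ) : h.b a = h.bgt a := by
  refine le_antisymm (fun f hf h0 => ?_) (h.bgt_le_b a)
  refine lt_of_le_of_ne (hf h0) fun hcon => hj ?_
  exact h.mem_jumps.2 ⟨ha, f, h0, hcon.symm⟩

/-- Powers of the centre lie deep in the filtration. -/
theorem pow_P_le [IsNoetherianRing R] (τ : ℝ) : ∃ N : ℕ, h.P ^ N ≤ h.b τ := by
  obtain ⟨δ, hδ0, hδ⟩ := h.exists_delta
  have h1 : ∀ N : ℕ, h.P ^ N ≤ h.b (N * δ) := by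
    intro N
    induction N with
    | zero => simp [h.b_zero]
    | succ N ih =>
      rw [pow_succ, Ideal.mul_le]
      intro x hx y hy h0
      have h10 := left_ne_zero_of_mul h0
      have h11 := right_ne_zero_of_mul h0
      rw [h.mul _ _ h10 h11]
      have h12 := ih hx h10
      have h13 := hδ _ hy h11
      push_cast
      linarith
  obtain ⟨N, hN⟩ := exists_nat_gt (τ / δ)
  refine ⟨N, (h1 N).trans (h.b_antitone ?_)⟩
  rw [div_lt_iff₀ hδ0] at hN
  exact hN.le

/-- (J4) comparison of a step with a prime at lower levels: multiply by a unit of the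
valuation. -/
theorem mem_b_iff_mem_of_mul {Q : Ideal R} [Q.IsPrime] {t : ℝ} {f g : R} (hg : g ∉ h.P)
    (hgQ : g ∉ Q) (hiff : g * f ∈ h.b t ↔ g * f ∈ Q) : f ∈ h.b t ↔ f ∈ Q := by
  constructor
  · intro hf
    have h1 : g * f ∈ Q := hiff.1 (Ideal.mul_mem_left _ _ hf)
    exact (Ideal.IsPrime.mem_or_mem inferInstance h1).resolve_left hgQ
  · intro hf
    exact h.mem_b_of_mul hg (hiff.2 (Ideal.mul_mem_left _ _ hf))

section Wt

variable {k : Type*} [Field k] [Algebra k R]

theorem v_smul {c : k} (hc : c ≠ 0) {f : R} (hf : f ≠ 0) : v (c • f) = v f := by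
  have hc' : IsUnit (algebraMap k R c) := (isUnit_iff_ne_zero.mpr hc).map _
  rw [Algebra.smul_def, h.mul _ _ hc'.ne_zero hf, h.unit hc', zero_add]

/-- The restriction of the valuation to a subspace is a weight function. -/
def wt (V : Submodule k R) : Wt k V where
  w x := v x
  smul_le' c x hc hx := by
    have hx' : (x : R) ≠ 0 := fun h0 => hx (Subtype.ext h0)
    show v x ≤ v ((c • x : V) : R)
    rw [Submodule.coe_smul, h.v_smul hc hx']
  add' x y hx hy hxy := by
    have hx' : (x : R) ≠ 0 := fun h0 => hx (Subtype.ext h0)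
    have hy' : (y : R) ≠ 0 := fun h0 => hy (Subtype.ext h0)
    have hxy' : (x : R) + y ≠ 0 := fun h0 => hxy (Subtype.ext h0)
    exact h.add x y hx' hy' hxy'

theorem wt_w (V : Submodule k R) (x : V) : (h.wt V).w x = v x := rfl

theorem mem_wt_sub (V : Submodule k R) (a : ℝ) (x : V) : x ∈ (h.wt V).sub a ↔ (x : R) ∈ h.b a := by
  rw [Wt.mem_sub, mem_b, wt_w, ne_eq, ne_eq, Submodule.coe_eq_zero]

theorem mem_wt_subGt (V : Submodule k R) (a : ℝ) (x : V) :
    x ∈ (h.wt V).subGt a ↔ (x : R) ∈ h.bgt a := by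
  rw [Wt.mem_subGt, mem_bgt, wt_w, ne_eq, ne_eq, Submodule.coe_eq_zero]

end Wt

end RVal

end RVal

end Vale.Agent.P271.H84
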